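import Crest.Agent.N255.Ku.CoS
import Crest.Agent.N255.Sl.Loc
import Crest.Agent.N255.Tp.Comm

/-!
# Row 255 (helper85): located curvature ideals from scalar facts on zones
-/

set_option autoImplicit false
open Set Module

noncomputable section

namespace Crest.Agent.N255.Lz

open Cs Cs.Tw Tp _root_.N255.Sl
open Ku (Kl ci_iff lc_cur_Z ev_lc mem_of_dual inS)

variable {p : ℕ} [Fact p.Prime] {K O : Type} [Field K] [CommRing O] [Algebra K O]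
  {G : Gr (Gm p) K O} {m I J : Ideal O} {X : Type} [TopologicalSpace X] {P : Sb X} {n : ℕ}

/-- the ideal of the values on `P` -/
def vI (P : Sb X) (φ : Co (Tw G) n X) : Ideal O := G.sp {x | ∃ σ ∈ P.S n, x = o G (φ σ)}

theorem id_vI (P : Sb X) (φ : Co (Tw G) n X) : G.Id (vI P φ) := G.id_sp _

theorem ci_vI (P : Sb X) (φ : Co (Tw G) n X) : CI P (vI P φ) φ := fun σ h => G.mem_sp ⟨σ, h, rfl⟩

theorem vI_le (hI : G.Id I) {φ : Co (Tw G) n X} : vI P φ ≤ I ↔ CI P I φ :=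
  hI.sp_le.trans ⟨fun h σ hσ => h _ ⟨σ, hσ, rfl⟩, fun h _ ⟨σ, hσ, e⟩ => e ▸ h σ hσ⟩


section lin
variable {α : Type} [Fintype α]

/-- `∑ q a • ε a` -/
def lin (q : α → Co K n X) (ε : α → Tw G) : Co (Tw G) n X := fun σ => ∑ a, q a σ • ε a

theorem lc_lin (l : Dual K (Tw G)) (q : α → Co K n X) (ε : α → Tw G) :
    Ku.lc l (lin q ε) = ∑ a, l (ε a) • q a := by
  funext σ; simp [Ku.lc, lin, Finset.sum_apply, mul_comm]



theorem ci_lin {q : α → Co K n X} {ε : α → Tw G} (h : ∀ a, q a ∈ P.van K K n ∨ In J (ε a)) :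
    CI P J (lin q ε) := fun σ hσ => by
  change o G (∑ a, q a σ • ε a) ∈ J
  rw [map_sum]
  refine sum_mem fun a _ => ?_
  rcases h a with h | h
  · simp [h σ hσ]
  · rw [map_smul]; exact Submodule.smul_of_tower_mem _ _ h

variable {M : Type} [AddCommGroup M] [Module K M] (μ : Tw G →ₗ[K] Tw G →ₗ[K] M) {i j : ℕ}

theorem ev_cup_lin (q : α → Co K i X) (ε : α → Tw G) (f : Co (Tw G) j X) (c : Ch K n X) :
    ev K (cup μ n (lin q ε) f) c = ∑ a, μ (ε a) (ev K f (cap j (q a) c)) := by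
  induction c using Finsupp.induction_linear with
  | zero => simp
  | add c c' h h' => simp [h, h', Finset.sum_add_distrib]
  | single σ r =>
    simp only [Cp.ev_sg, lin, cup, cap, Tp.sg, map_smul, one_smul, map_sum, LinearMap.sum_apply,
      LinearMap.smul_apply, Finset.smul_sum]

theorem ev_cup_lin' (q : α → Co K i X) (ε : α → Tw G) (f : Co (Tw G) j X) (c : Ch K n X) :
    ev K (cup μ n f (lin q ε)) c = ∑ a, μ (ev K f (cap' j (q a) c)) (ε a) := by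
  induction c using Finsupp.induction_linear with
  | zero => simp
  | add c c' h h' => simp [h, h', Finset.sum_add_distrib]
  | single σ r =>
    simp only [Cp.ev_sg, lin, cup, cap', Tp.sg, map_smul, one_smul, map_sum,
      LinearMap.smul_apply, Finset.smul_sum]

end lin

theorem cup_lB_mem (hI : G.Id I) (hJ : G.Id J) {φ ψ : Co (Tw G) 2 X} (h : CI P I φ) (h' : CI P J ψ)
    {c : Ch K 4 X} (hc : c ∈ P.ch K 4) : ev K (cup (lB G) 4 φ ψ) c ∈ I * J :=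
  ev_ideal (fun σ hσ => by
    rw [cup22, lB_apply]
    exact lam_mem (hI.mul hJ) (o_mul_mem hI hJ (D_mem hI (h _ (e3_mem P hσ (by decide) (by decide))))
      (h' _ (e3_mem P hσ (by decide) (by decide))))) hc

theorem id_iSup₂ {ι : Type} {Q : ι → Prop} {I : ι → Ideal O} (h : ∀ i, G.Id (I i)) :
    G.Id (⨆ (i) (_ : Q i), I i) :=
  Gr.Id.iSup fun i => by
    by_cases hi : Q i
    · simpa [hi] using h i
    · simpa [hi] using G.id_bot

theorem id_one {x : O} {a : Gm p} (h : G.Hg a x) : G.Id (Ideal.span {x}) :=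
  G.id_span_hg (by rintro _ rfl; exact ⟨_, h⟩)

/-- graded ideals have finitely many homogeneous generators -/
theorem exists_gen [Module.Finite K O] (hI : G.Id I) : ∃ (n : ℕ) (b : Fin n × Gm p → O),
    (∀ i, G.Hg i.2 (b i)) ∧ Ideal.span (range b) = I := by
  obtain ⟨n, x, hx⟩ := Submodule.fg_iff_exists_fin_generating_family.1
    (IsNoetherian.noetherian (I.restrictScalars K))
  have h1 : ∀ i, x i ∈ I := fun i => (hx ▸ Submodule.subset_span ⟨i, rfl⟩ : x i ∈ I.restrictScalars K)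
  refine ⟨n, fun i => G.pr i.2 (x i.1), fun i => G.hg_pr _ _, le_antisymm
    (Ideal.span_le.2 (by rintro _ ⟨i, rfl⟩; exact hI _ _ (h1 _))) fun y hy => ?_⟩
  have : I.restrictScalars K ≤ (Ideal.span (range fun i : Fin n × Gm p =>
      G.pr i.2 (x i.1))).restrictScalars K := by
    rw [← hx, Submodule.span_le]
    rintro _ ⟨i, rfl⟩
    exact G.mem_of_pr fun a => Ideal.subset_span ⟨(i, a), rfl⟩
  exact this hy

/-- the coefficient of the component of degree `γ` -/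
def co (y y' : Tw G) (γ : Gm p) : O :=
  Cs.sg γ (g0 p - γ) • (γ.2.val • G.pr (g0 p - γ) (o G y) + (g0 p - γ).2.val • G.pr (g0 p - γ) (o G y'))

theorem co_hg (y y' : Tw G) (γ : Gm p) : G.Hg (g0 p - γ) (co y y' γ) :=
  (((G.hg_pr _ _).nsmul _).add ((G.hg_pr _ _).nsmul _)).zsmul _

theorem pr_D (a : Gm p) (x : Tw G) : G.pr a (o G (D G x)) = a.2.val • G.pr a (o G x) := by
  rw [o_D, map_sum, Finset.sum_eq_single a (fun b _ hb => by
    rw [map_nsmul, (G.hg_pr b _).ne (Ne.symm hb), smul_zero]) (by simp), map_nsmul, G.hg_pr]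

theorem lB_add (e y y' : Tw G) :
    lB G e y + lB G y' e = ∑ γ, G.pr γ (o G e) * co y y' γ := by
  rw [lB_apply, lB_apply, lam_comm (D G y'), lam_mul, lam_mul, ← Finset.sum_add_distrib]
  refine Finset.sum_congr rfl fun γ _ => ?_
  rw [pr_D, pr_D, co]
  simp only [zsmul_eq_mul, nsmul_eq_mul]
  ring

theorem co_sub [Fact ((p : O) = 0)] (y y' : Tw G) (γ : Gm p) : G.pr (g0 p - γ) (o G y) =
    Cs.sg γ (g0 p - γ) • co y y' γ + (g0 p - γ).2.val • G.pr (g0 p - γ) (o G (y - y')) := by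
  have h1 : G.pr (g0 p - γ) (o G y) = (γ.2 + (g0 p - γ).2).val • G.pr (g0 p - γ) (o G y) := by
    have e : γ.2 + (g0 p - γ).2 = 1 := by simp [g0]
    have : Fact (1 < p) := ⟨(Fact.out : p.Prime).one_lt⟩
    rw [e, ZMod.val_one, one_smul]
  rw [co, smul_smul, sg_sq, one_smul, map_sub, map_sub, smul_sub]
  conv_lhs => rw [h1, val_add_smul (Fact.out : (p : O) = 0)]
  abel

theorem in_of_co [Fact ((p : O) = 0)] (hJ : G.Id J) {y y' : Tw G} (h : ∀ γ, co y y' γ ∈ J)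
    (h' : In J (y - y')) : In J y :=
  G.mem_of_pr fun a => by
    have := co_sub y y' (g0 p - a)
    rw [sub_sub_cancel] at this
    rw [this]
    exact add_mem (zsmul_mem (h _) _) (nsmul_mem (hJ _ _ h') _)

theorem co_mem (hJ : G.Id J) {y y' : Tw G} (h : In J y) (h' : In J y') (γ : Gm p) : co y y' γ ∈ J :=
  zsmul_mem (add_mem (nsmul_mem (hJ _ _ h) _) (nsmul_mem (hJ _ _ h') _)) _

/-- The geometric data: zones, located cochains, pieces of the fundamental chain. -/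
structure Gz (K X κ α ι : Type) [Field K] [TopologicalSpace X] where
  P : κ → Sb X
  PK : ι → Sb X
  q : α → Co K 2 X
  ρ : κ → Ch K 4 X
  γ : ℕ
  pos : κ → ℕ
  pa : α → ℕ
  sl : κ → ι
  N1 : κ → Co K 2 X → Prop
  N2 : κ → Co K 2 X → Prop

namespace Gz

variable {κ α ι β : Type} [Fintype κ] [Fintype α] (Y : Gz K X κ α ι)

/-- the zones seen from `k` towards the vertex -/
def nb1 (k k' : κ) : Prop := Y.pos k' ≤ Y.pos k + Y.γ

/-- the zones seen from `k` towards the wall -/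
def nb2 (k k' : κ) : Prop := Y.pos k ≤ Y.pos k' + Y.γ ∧ (Y.sl k' = Y.sl k ∨ Y.pos k' ≤ Y.γ)

/-- the scalar facts -/
structure Ok : Prop where
  mem : ∀ k, Y.ρ k ∈ (Y.P k).ch K 4
  cl : ∀ a k, Y.q a ∈ (Y.P k).Z K K 2
  loc : ∀ a k, Y.pa a < Y.pos k → Y.q a ∈ (Y.P k).van K K 2
  com : ∀ k u, Y.N1 k u → (∀ k', Y.nb1 k k' → u ∈ (Y.P k').Z K K 2) → ∀ a,
    Y.pa a ≤ Y.pos k + Y.γ → ev K u (cap 2 (Y.q a) (∑ j, Y.ρ j)) = ev K u (cap' 2 (Y.q a) (∑ j, Y.ρ j))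
  det1 : ∀ k u, Y.N1 k u → (∀ k', Y.nb1 k k' → u ∈ (Y.P k').Z K K 2) →
    (∀ a, Y.pa a ≤ Y.pos k + Y.γ → ev K u (cap 2 (Y.q a) (∑ j, Y.ρ j)) = 0) → u ∈ (Y.P k).van K K 2
  det2 : ∀ k u, Y.γ < Y.pos k → Y.N2 k u → (∀ k', Y.nb2 k k' → u ∈ (Y.P k').Z K K 2) →
    u ∈ (Y.PK (Y.sl k)).van K K 2 → u ∈ (Y.P k).van K K 2

variable (g : Cn G X) (ε : α → Tw G)

/-- the normalised part of the curvature -/
def f : Co (Tw G) 2 X := cur g - lin Y.q ε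

/-- the generators -/
def E (a : α) (γ : Gm p) : O :=
  co (ev K (Y.f g ε) (cap 2 (Y.q a) (∑ j, Y.ρ j))) (ev K (Y.f g ε) (cap' 2 (Y.q a) (∑ j, Y.ρ j))) γ

/-- the curvature ideal of a zone -/
def Iz (k : κ) : Ideal O := vI (Y.P k) (Y.f g ε) ⊔
  ⨆ (a : α × Gm p) (_ : Y.pos k ≤ Y.pa a.1 + Y.γ), Ideal.span {G.pr a.2 (o G (ε a.1))}

/-- the zones with their ideals; `b` are extra generators at the positions `pb`, `Kk` is added to the
deep ideals -/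
def zn (Wt : ℕ → Ideal O) (m : Ideal O) (μ : ℕ) (b : β → O) (pb : β → ℕ) (Kk : ι → Ideal O) :
    Zn O κ ((α × Gm p) ⊕ β) ι where
  Wt := Wt
  m := m
  μ := μ
  γ := Y.γ
  pos := Y.pos
  pa := Sum.elim (fun a => Y.pa a.1) pb
  sl := Y.sl
  I := Y.Iz g ε
  E' k := vI (Y.P k) (Y.f g ε)
  IK e := vI (Y.PK e) (Y.f g ε) ⊔ Kk e
  ε := Sum.elim (fun a => G.pr a.2 (o G (ε a.1))) 0
  E := Sum.elim (fun a => Y.E g ε a.1 a.2) b

/-- the error ideal seen from `k` towards the vertex -/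
def J1 (m : Ideal O) (k : κ) : Ideal O := m * ⨆ (k') (_ : Y.nb1 k k'), Y.Iz g ε k'

/-- the error ideal seen from `k` towards the wall -/
def J2 (m : Ideal O) (k : κ) : Ideal O := m * ⨆ (k') (_ : Y.nb2 k k'), Y.Iz g ε k'

/-- the extra generators seen from `k` -/
def Bk (b : β → O) (pb : β → ℕ) (k : κ) : Ideal O :=
  ⨆ (i) (_ : pb i ≤ Y.pos k + Y.γ), Ideal.span {b i}

variable {Y g ε} {hm : G.Id m} {Wt : ℕ → Ideal O} {μ : ℕ} {b : β → O} {pb : β → ℕ}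
  {Kk : ι → Ideal O}

omit [Fintype κ] [Fintype α] in
theorem in_eps (a : α) {J : Ideal O} (h : ∀ γ, Ideal.span {G.pr γ (o G (ε a))} ≤ J) : In J (ε a) :=
  G.mem_of_pr fun γ => h γ (Ideal.mem_span_singleton_self _)

theorem id_Eps : G.Id (Y.zn g ε Wt m μ b pb Kk).Eps :=
  G.id_span_hg (by rintro _ ⟨a | a, rfl⟩; exacts [⟨_, G.hg_pr _ _⟩, ⟨0, G.hg_zero _⟩])

omit [Fintype κ] in
theorem id_Iz (k : κ) : G.Id (Y.Iz g ε k) :=
  (id_vI _ _).sup (id_iSup₂ fun _ => id_one (G.hg_pr _ _))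

omit [Fintype κ] in
theorem in_eps_Iz {k : κ} {a : α} (ha : Y.pos k ≤ Y.pa a + Y.γ) : In (Y.Iz g ε k) (ε a) :=
  in_eps a fun γ => le_sup_of_le_right (le_iSup₂_of_le (f := fun (a : α × Gm p)
    (_ : Y.pos k ≤ Y.pa a.1 + Y.γ) => Ideal.span {G.pr a.2 (o G (ε a.1))}) (a, γ) ha le_rfl)

omit [Fintype κ] in
theorem ci_cur {k : κ} (h : ∀ a, Y.pa a < Y.pos k → Y.q a ∈ (Y.P k).van K K 2) :
    CI (Y.P k) (Y.Iz g ε k) (cur g) := fun σ hσ => by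
  rw [show cur g σ = Y.f g ε σ + lin Y.q ε σ by simp [f]]
  refine In.add ((ci_vI _ _ σ hσ).mono le_sup_left) (ci_lin (fun a => ?_) σ hσ)
  rcases lt_or_ge (Y.pa a) (Y.pos k) with ha | ha
  · exact Or.inl (h a ha)
  · exact Or.inr (in_eps_Iz (le_add_right ha))

/-- **the action is `∑ ε E` up to located squares** -/
theorem pp_dec [Fintype β] [Fact ((p : O) = 0)] (h : ∀ k, Y.ρ k ∈ (Y.P k).ch K 4)
    (hq : ∀ a k, Y.pa a < Y.pos k → Y.q a ∈ (Y.P k).van K K 2) (hg : ∀ k, CU (Y.P k) hm g) :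
    ev K (PP g) (∑ k, Y.ρ k) - ∑ a, (Y.zn g ε Wt m μ b pb Kk).ε a * (Y.zn g ε Wt m μ b pb Kk).E a ∈
      (Y.zn g ε Wt m μ b pb Kk).Qd ⊔ (Y.zn g ε Wt m μ b pb Kk).Eps * (Y.zn g ε Wt m μ b pb Kk).Eps := by
  set Z := Y.zn g ε Wt m μ b pb Kk
  have e1 : ∀ c : Ch K 4 X, ev K (cup (lB G) 4 (cur g) (cur g)) c =
      ev K (cup (lB G) 4 (lin Y.q ε) (lin Y.q ε)) c + ev K (cup (lB G) 4 (Y.f g ε) (Y.f g ε)) c +
        (ev K (cup (lB G) 4 (lin Y.q ε) (Y.f g ε)) c +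
          ev K (cup (lB G) 4 (Y.f g ε) (lin Y.q ε)) c) := fun c => by
    rw [← Cp.ev_add, ← Cp.ev_add, ← Cp.ev_add]
    congr 2
    funext σ
    simp only [cup, f, Pi.add_apply, Pi.sub_apply, map_sub, LinearMap.sub_apply]
    abel
  have e2 : ∑ a, Z.ε a * Z.E a = ev K (cup (lB G) 4 (lin Y.q ε) (Y.f g ε)) (∑ k, Y.ρ k) +
      ev K (cup (lB G) 4 (Y.f g ε) (lin Y.q ε)) (∑ k, Y.ρ k) := by
    rw [ev_cup_lin, ev_cup_lin', ← Finset.sum_add_distrib, Fintype.sum_sum_type,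
      Fintype.sum_prod_type]
    simp only [lB_add]
    simp [Z, zn, E]
  have h1 : CI (On univ) Z.Eps (lin Y.q ε) := ci_lin fun a => Or.inr (in_eps a fun γ =>
    Ideal.span_mono (singleton_subset_iff.2 ⟨Sum.inl (a, γ), rfl⟩))
  have h2 : ev K (PP g) (∑ k, Y.ρ k) - ev K (cup (lB G) 4 (cur g) (cur g)) (∑ k, Y.ρ k) ∈ Z.Qd := by
    rw [map_sum, map_sum, ← Finset.sum_sub_distrib]
    exact sum_mem fun k _ => Ideal.mem_iSup_of_mem k (Ideal.mem_sup_right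
      (PP_sym (id_Iz k) (hg k) (ci_cur fun a => hq a k) (h k)))
  have h3 : ev K (cup (lB G) 4 (Y.f g ε) (Y.f g ε)) (∑ k, Y.ρ k) ∈ Z.Qd := by
    rw [map_sum]
    exact sum_mem fun k _ => Ideal.mem_iSup_of_mem k (Ideal.mem_sup_left
      (cup_lB_mem (id_vI _ _) (id_vI _ _) (ci_vI _ _) (ci_vI _ _) (h k)))
  have h4 := cup_lB_mem id_Eps id_Eps h1 h1 (c := ∑ k, Y.ρ k) fun σ _ => subset_univ _
  convert Submodule.add_mem_sup (add_mem h2 h3) h4 using 1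
  rw [e1, e2]
  abel

theorem Ok.lc_f_Z (h : Y.Ok) {k : κ} (hg : CU (Y.P k) hm g)
    {l : Dual K (Tw G)} (hl : Kl l (m * Y.Iz g ε k)) :
    Ku.lc l (Y.f g ε) ∈ (Y.P k).Z K K 2 := by
  have : Ku.lc l (Y.f g ε) = Ku.lc l (cur g) - Ku.lc l (lin Y.q ε) := funext fun σ => map_sub l _ _
  rw [this, lc_lin]
  exact sub_mem (lc_cur_Z (id_Iz k) hg (ci_cur fun a => h.loc a k) hl)
    (sum_mem fun a _ => Submodule.smul_mem _ _ (h.cl a k))

theorem in_iff {x : Tw G} : In J x ↔ ∀ l : Dual K (Tw G), Kl l J → l x = 0 :=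
  ⟨fun h _ hl => hl x h, fun h => mem_of_dual (N := inS G J) h⟩

omit [Fintype κ] in
theorem id_J1 (hm : G.Id m) (k : κ) : G.Id (Y.J1 g ε m k) :=
  hm.mul (id_iSup₂ id_Iz)

omit [Fintype κ] in
theorem id_J2 (hm : G.Id m) (k : κ) : G.Id (Y.J2 g ε m k) :=
  hm.mul (id_iSup₂ id_Iz)

/-- towards the vertex -/
theorem Ok.hE1 [Fact ((p : O) = 0)] (h : Y.Ok) (hg : ∀ k, CU (Y.P k) hm g) (k : κ) {B : Ideal O}
    (hB : G.Id B) (n1 : ∀ l, Kl l (B ⊔ Y.J1 g ε m k) → Y.N1 k (Ku.lc l (Y.f g ε))) :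
    vI (Y.P k) (Y.f g ε) ≤ ((⨆ (a : α × Gm p) (_ : Y.pa a.1 ≤ Y.pos k + Y.γ),
      Ideal.span {Y.E g ε a.1 a.2}) ⊔ B) ⊔ Y.J1 g ε m k := by
  have h0 : G.Id (⨆ (a : α × Gm p) (_ : Y.pa a.1 ≤ Y.pos k + Y.γ), Ideal.span {Y.E g ε a.1 a.2}) :=
    id_iSup₂ fun a => id_one (a := g0 p - a.2) (co_hg _ _ _)
  have h2 : ∀ a γ, Y.pa a ≤ Y.pos k + Y.γ → Y.E g ε a γ ∈ ⨆ (a : α × Gm p)
      (_ : Y.pa a.1 ≤ Y.pos k + Y.γ), Ideal.span {Y.E g ε a.1 a.2} := fun a γ ha =>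
    Ideal.mem_iSup_of_mem (a, γ) (Ideal.mem_iSup_of_mem ha (Ideal.mem_span_singleton_self _))
  generalize (⨆ (a : α × Gm p) (_ : Y.pa a.1 ≤ Y.pos k + Y.γ), Ideal.span {Y.E g ε a.1 a.2}) = S at *
  have hS : G.Id ((S ⊔ B) ⊔ Y.J1 g ε m k) := (h0.sup hB).sup (id_J1 hm k)
  have h1 : ∀ l, Kl l ((S ⊔ B) ⊔ Y.J1 g ε m k) → Y.N1 k (Ku.lc l (Y.f g ε)) ∧
      ∀ k', Y.nb1 k k' → Ku.lc l (Y.f g ε) ∈ (Y.P k').Z K K 2 := fun l hl =>
    ⟨n1 l (hl.mono (sup_le_sup_right le_sup_right _)), fun k' hk' => h.lc_f_Z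
      (hg k') (hl.mono (le_sup_of_le_right (Ideal.mul_mono_right (le_iSup₂_of_le k' hk' le_rfl))))⟩
  refine (vI_le hS).2 (ci_iff.2 fun l hl => h.det1 k _ (h1 l hl).1 (h1 l hl).2 fun a ha => ?_)
  rw [ev_lc]
  refine hl _ (in_of_co hS (y' := ev K (Y.f g ε) (cap' 2 (Y.q a) (∑ j, Y.ρ j)))
    (fun γ => Ideal.mem_sup_left (Ideal.mem_sup_left (h2 a γ ha))) (in_iff.2 fun l' hl' => ?_))
  rw [map_sub, ← ev_lc, ← ev_lc, h.com k _ (h1 l' hl').1 (h1 l' hl').2 a ha, sub_self]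

/-- towards the wall -/
theorem Ok.hE2 (h : Y.Ok) (hg : ∀ k, CU (Y.P k) hm g) {k : κ} (hk : Y.γ < Y.pos k) {B : Ideal O}
    (hB : G.Id B) (n2 : ∀ l, Kl l (B ⊔ Y.J2 g ε m k) → Y.N2 k (Ku.lc l (Y.f g ε))) :
    vI (Y.P k) (Y.f g ε) ≤ (vI (Y.PK (Y.sl k)) (Y.f g ε) ⊔ B) ⊔ Y.J2 g ε m k :=
  (vI_le (((id_vI _ _).sup hB).sup (id_J2 hm k))).2 (ci_iff.2 fun l hl =>
    h.det2 k _ hk (n2 l (hl.mono (sup_le_sup_right le_sup_right _)))
      (fun k' hk' => h.lc_f_Z (hg k')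
        (hl.mono (le_sup_of_le_right (Ideal.mul_mono_right (le_iSup₂_of_le k' hk' le_rfl)))))
      (ci_iff.1 (ci_vI _ _) l (hl.mono (le_sup_of_le_left le_sup_left))))

/-- **the located ideals satisfy the hypotheses of the ideal calculus** -/
theorem Ok.zn [Fact ((p : O) = 0)] (h : Y.Ok) (hg : ∀ k, CU (Y.P k) hm g) (fl : Fl Wt)
    (nil : IsNilpotent m) (mle : m ≤ Wt μ) (gap : 3 * Y.γ < μ)
    (hb : ∀ i, ∃ a, G.Hg a (b i)) (hK : ∀ e, G.Id (Kk e))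
    (n1 : ∀ k l, Kl l (Y.Bk b pb k ⊔ Y.J1 g ε m k) → Y.N1 k (Ku.lc l (Y.f g ε)))
    (n2 : ∀ k l, Y.γ < Y.pos k → Kl l (Kk (Y.sl k) ⊔ Y.J2 g ε m k) → Y.N2 k (Ku.lc l (Y.f g ε))) :
    (Y.zn g ε Wt m μ b pb Kk).Ok where
  fl := fl
  nil := nil
  mle := mle
  gap := gap
  hI k := sup_le_sup_left (iSup₂_le fun a ha => le_iSup₂_of_le (f := fun (a : (α × Gm p) ⊕ β)
    (_ : Y.pos k ≤ (Y.zn g ε Wt m μ b pb Kk).pa a + Y.γ) =>
      Ideal.span {(Y.zn g ε Wt m μ b pb Kk).ε a}) (Sum.inl a) ha le_rfl) _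
  hE1 k := by
    refine (h.hE1 hg k (id_iSup₂ fun i => id_one (hb i).choose_spec) (n1 k)).trans
      (sup_le_sup_right (sup_le (iSup₂_le fun a ha => ?_) (iSup₂_le fun a ha => ?_)) _)
    · exact le_iSup₂_of_le (f := fun (a : (α × Gm p) ⊕ β)
        (_ : (Y.zn g ε Wt m μ b pb Kk).pa a ≤ Y.pos k + Y.γ) =>
        Ideal.span {(Y.zn g ε Wt m μ b pb Kk).E a}) (Sum.inl a) ha le_rfl
    · exact le_iSup₂_of_le (f := fun (a : (α × Gm p) ⊕ β)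
        (_ : (Y.zn g ε Wt m μ b pb Kk).pa a ≤ Y.pos k + Y.γ) =>
        Ideal.span {(Y.zn g ε Wt m μ b pb Kk).E a}) (Sum.inr a) ha le_rfl
  hE2 k hk := h.hE2 hg hk (hK _) fun l => n2 k l hk

end Gz

end Crest.Agent.N255.Lz

end
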